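import Vale.Agent.P058.RS.NatS

/-! # The staircase: sums, pointwise relation, reachability on `OmS N M n` -/

namespace Vale.Agent.P058.RS

open Vale.Agent.P058 Vale.Agent.P058.RQ

/-- [E1] `ZMod.neg_val`, or: `(-e - 1) + (e + 1) = 0` and uniqueness; or `ZMod.val_injective` after
casting `((n - 1 - e.val : ℕ) : ZMod n) = -e + -1` (`Nat.cast_sub`, `ZMod.natCast_self`,
`ZMod.natCast_zmod_val`) and `ZMod.val_natCast_of_lt`. -/
lemma val_neg_sub_one (n : ℕ) [NeZero n] (e : ZMod n) : (-e + -1).val = n - 1 - e.val := by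
  have hlt : e.val < n := ZMod.val_lt e
  have h : ((n - 1 - e.val : ℕ) : ZMod n) = -e + -1 := by
    have h1 : n - 1 - e.val + (e.val + 1) = n := by omega
    have h2 : ((n - 1 - e.val : ℕ) : ZMod n) + ((e.val : ZMod n) + 1) = 0 := by
      have h3 := congrArg (Nat.cast : ℕ → ZMod n) h1
      rw [ZMod.natCast_self, Nat.cast_add, Nat.cast_add, Nat.cast_one] at h3
      exact h3
    rw [ZMod.natCast_zmod_val] at h2
    linear_combination h2
  rw [← h, ZMod.val_natCast_of_lt (by omega)]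

/-- [E2] same method. -/
lemma val_neg_sub_two (n : ℕ) [NeZero n] (e : ZMod n) :
    (-e + -2).val = if e.val + 1 = n then e.val else n - 2 - e.val := by
  have hlt : e.val < n := ZMod.val_lt e
  split_ifs with hc
  · have h2 : (e : ZMod n) + 1 = 0 := by
      have h3 := congrArg (Nat.cast : ℕ → ZMod n) hc
      rw [ZMod.natCast_self, Nat.cast_add, Nat.cast_one, ZMod.natCast_zmod_val] at h3
      exact h3
    have h4 : -e + -2 = e := by linear_combination (-2 : ZMod n) * h2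
    rw [h4]
  · have h : ((n - 2 - e.val : ℕ) : ZMod n) = -e + -2 := by
      have h1 : n - 2 - e.val + (e.val + 2) = n := by omega
      have h2 : ((n - 2 - e.val : ℕ) : ZMod n) + ((e.val : ZMod n) + 2) = 0 := by
        have h3 := congrArg (Nat.cast : ℕ → ZMod n) h1
        rw [ZMod.natCast_self, Nat.cast_add, Nat.cast_add, Nat.cast_ofNat] at h3
        exact h3
      rw [ZMod.natCast_zmod_val] at h2
      linear_combination h2
    rw [← h, ZMod.val_natCast_of_lt (by omega)]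

/-- [E3] `ZMod.neg_val`. -/
lemma val_neg' (n : ℕ) [NeZero n] (e : ZMod n) :
    (-e).val = if e.val = 0 then 0 else n - e.val := by
  rw [ZMod.neg_val]
  by_cases h : e = 0
  · subst h; simp
  · have h' : e.val ≠ 0 := fun hh => h ((ZMod.val_eq_zero e).mp hh)
    rw [if_neg h, if_neg h']

variable (N M n : ℕ) [NeZero N] [NeZero M] [NeZero n]

/-- [U1] `Fintype.sum_prod_type`, `Fintype.sum_bool`, `sum_zmod` (RQ/Bridge.lean), `Finset.sum_const`,
`ZMod.card`. -/
lemma sum_vecS (F1 : ℕ → ℕ → ℕ → ℝ) (F0 : ℕ → ℕ → ℝ) :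
    ∑ ω : OmS N M n,
        (if ω.1.1.1 then F1 ω.1.1.2.val ω.1.2.val ω.2.val else F0 ω.1.1.2.val ω.1.2.val) =
      ∑ r ∈ Finset.range (2 * M), ∑ t ∈ Finset.range N, ∑ e ∈ Finset.range n, F1 r t e +
        n * ∑ r ∈ Finset.range (2 * M), ∑ t ∈ Finset.range N, F0 r t := by
  have h2M : NeZero (2 * M) := ⟨by have := NeZero.ne M; omega⟩
  simp only [OmS, Fintype.sum_prod_type, Fintype.sum_bool, if_true, Bool.false_eq_true, if_false,
    Finset.sum_const, Finset.card_univ, ZMod.card, nsmul_eq_mul]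
  have e1 : ∀ r t : ℕ, ∑ e : ZMod n, F1 r t e.val = ∑ e ∈ Finset.range n, F1 r t e := by
    intro r t
    exact sum_zmod n (fun e => F1 r t e)
  simp only [e1]
  have e2 : ∀ r : ℕ, ∑ t : ZMod N, ∑ e ∈ Finset.range n, F1 r t.val e
      = ∑ t ∈ Finset.range N, ∑ e ∈ Finset.range n, F1 r t e := by
    intro r
    exact sum_zmod N (fun t => ∑ e ∈ Finset.range n, F1 r t e)
  have e0 : ∀ r : ℕ, ∑ t : ZMod N, (n : ℝ) * F0 r t.val
      = n * ∑ t ∈ Finset.range N, F0 r t := by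
    intro r
    rw [← Finset.mul_sum, sum_zmod N (fun t => F0 r t)]
  simp only [e2, e0]
  rw [sum_zmod (2 * M) (fun r => ∑ t ∈ Finset.range N, ∑ e ∈ Finset.range n, F1 r t e),
    sum_zmod (2 * M) (fun r => (n : ℝ) * ∑ t ∈ Finset.range N, F0 r t),
    ← Finset.mul_sum]

variable (x y l1 l0 : ℝ)

/-- [U2] summand `= if ω.1.1.1 then l1^2 (C1 - A1)^2 else l0^2 (C1 - A1)^2` (the `zt` cancel);
`sum_vecS`, `sq1`, `cnt1` (RQ/Nat1.lean), `Finset.sum_const`, `Finset.card_range`. -/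
lemma sum_sq_vecS :
    ∑ ω : OmS N M n, (vecS N M n (CS N M n x y) (C1 N M x y) l1 l0 ω -
        vecS N M n (AS N M n x y) (A1 N M x y) l1 l0 ω) ^ 2 =
      (l1 ^ 2 + l0 ^ 2) * n * (2 * (N * x + M * y) ^ 2) := by
  have hN : 0 < N := Nat.pos_of_ne_zero (NeZero.ne N)
  have hM : 0 < M := Nat.pos_of_ne_zero (NeZero.ne M)
  have h1 : ∀ ω : OmS N M n, (vecS N M n (CS N M n x y) (C1 N M x y) l1 l0 ω -
        vecS N M n (AS N M n x y) (A1 N M x y) l1 l0 ω) ^ 2 =
      (if ω.1.1.1 then (fun r t (_ : ℕ) => l1 ^ 2 * (C1 N M x y r t - A1 N M x y r t) ^ 2)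
          ω.1.1.2.val ω.1.2.val ω.2.val
        else (fun r t => l0 ^ 2 * (C1 N M x y r t - A1 N M x y r t) ^ 2) ω.1.1.2.val ω.1.2.val) := by
    intro ω
    unfold vecS CS AS
    split_ifs <;> ring
  rw [Finset.sum_congr rfl (fun ω _ => h1 ω),
    sum_vecS N M n (fun r t (_ : ℕ) => l1 ^ 2 * (C1 N M x y r t - A1 N M x y r t) ^ 2)
      (fun r t => l0 ^ 2 * (C1 N M x y r t - A1 N M x y r t) ^ 2)]
  have e0 : ∀ l : ℝ, ∑ r ∈ Finset.range (2 * M), ∑ t ∈ Finset.range N,
      l * (C1 N M x y r t - A1 N M x y r t) ^ 2 = l * (2 * (N * x + M * y) ^ 2) := by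
    intro l
    rw [← cnt1 N M hN hM, Finset.mul_sum]
    refine Finset.sum_congr rfl fun r hr => ?_
    rw [Finset.mul_sum]
    refine Finset.sum_congr rfl fun t ht => ?_
    rw [sq1 N M x y hN hM (Finset.mem_range.1 hr) (Finset.mem_range.1 ht)]
  have e1 : ∑ r ∈ Finset.range (2 * M), ∑ t ∈ Finset.range N, ∑ _e ∈ Finset.range n,
      l1 ^ 2 * (C1 N M x y r t - A1 N M x y r t) ^ 2 = n * (l1 ^ 2 * (2 * (N * x + M * y) ^ 2)) := by
    rw [← e0 (l1 ^ 2), Finset.mul_sum]
    refine Finset.sum_congr rfl fun r _ => ?_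
    rw [Finset.mul_sum]
    refine Finset.sum_congr rfl fun t _ => ?_
    rw [Finset.sum_const, Finset.card_range, nsmul_eq_mul]
  rw [e1, e0 (l0 ^ 2)]
  ring

/-- [U3] `sum_vecS`, `prS`, `cntS`, `pr1`, `cnt1`. -/
lemma sum_pr_vecS :
    ∑ ω : OmS N M n, (vecS N M n (CS N M n x y) (C1 N M x y) l1 l0 ω -
        vecS N M n (AS N M n x y) (A1 N M x y) l1 l0 ω) *
        (vecS N M n (DS N M n x y) (D1 N M x y) l1 l0 ω -
          vecS N M n (BS N M n x y) (B1 N M x y) l1 l0 ω) =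
      (l1 ^ 2 * (4 - 2 * n) + l0 ^ 2 * (2 * n)) * ((N * x + M * y) * (x + y)) := by
  have hN : 0 < N := Nat.pos_of_ne_zero (NeZero.ne N)
  have hM : 0 < M := Nat.pos_of_ne_zero (NeZero.ne M)
  have hn : 0 < n := Nat.pos_of_ne_zero (NeZero.ne n)
  have e : ∀ ω : OmS N M n, (vecS N M n (CS N M n x y) (C1 N M x y) l1 l0 ω -
        vecS N M n (AS N M n x y) (A1 N M x y) l1 l0 ω) *
        (vecS N M n (DS N M n x y) (D1 N M x y) l1 l0 ω -
          vecS N M n (BS N M n x y) (B1 N M x y) l1 l0 ω) =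
      (if ω.1.1.1 then
        (fun r t e => l1 ^ 2 * ((CS N M n x y r t e - AS N M n x y r t e) *
          (DS N M n x y r t e - BS N M n x y r t e))) ω.1.1.2.val ω.1.2.val ω.2.val
      else (fun r t => l0 ^ 2 * ((C1 N M x y r t - A1 N M x y r t) *
          (D1 N M x y r t - B1 N M x y r t))) ω.1.1.2.val ω.1.2.val) := by
    intro ω
    unfold vecS
    split_ifs <;> ring
  rw [Finset.sum_congr rfl (fun ω _ => e ω)]
  refine (sum_vecS N M n (fun r t e => l1 ^ 2 * ((CS N M n x y r t e - AS N M n x y r t e) *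
          (DS N M n x y r t e - BS N M n x y r t e)))
          (fun r t => l0 ^ 2 * ((C1 N M x y r t - A1 N M x y r t) *
          (D1 N M x y r t - B1 N M x y r t)))).trans ?_
  have e0 : ∑ r ∈ Finset.range (2 * M), ∑ t ∈ Finset.range N,
      l0 ^ 2 * ((C1 N M x y r t - A1 N M x y r t) * (D1 N M x y r t - B1 N M x y r t)) =
      l0 ^ 2 * (2 * ((N * x + M * y) * (x + y))) := by
    rw [← cnt1 N M hN hM, Finset.mul_sum]
    refine Finset.sum_congr rfl fun r hr => ?_
    rw [Finset.mul_sum]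
    refine Finset.sum_congr rfl fun t ht => ?_
    rw [pr1 N M x y hN hM (Finset.mem_range.1 hr) (Finset.mem_range.1 ht)]
  have e1 : ∑ r ∈ Finset.range (2 * M), ∑ t ∈ Finset.range N, ∑ e ∈ Finset.range n,
      l1 ^ 2 * ((CS N M n x y r t e - AS N M n x y r t e) *
          (DS N M n x y r t e - BS N M n x y r t e)) =
      l1 ^ 2 * ((4 - 2 * n) * ((N * x + M * y) * (x + y))) := by
    rw [← cntS N M n hN hM hn, Finset.mul_sum]
    refine Finset.sum_congr rfl fun r hr => ?_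
    rw [Finset.mul_sum]
    refine Finset.sum_congr rfl fun t ht => ?_
    rw [Finset.mul_sum]
    refine Finset.sum_congr rfl fun e he => ?_
    rw [prS N M n x y hN hM (Finset.mem_range.1 hr) (Finset.mem_range.1 ht) (Finset.mem_range.1 he)]
  rw [e1, e0]
  ring

/-- [U4] `relS`, `rel1`, `ZMod.val_lt`. -/
lemma rel_vecS (ω : OmS N M n) :
    (x + y) * (M * y * vecS N M n (AS N M n x y) (A1 N M x y) l1 l0 ω +
        N * x * vecS N M n (CS N M n x y) (C1 N M x y) l1 l0 ω) =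
      (N * x + M * y) * (y * vecS N M n (BS N M n x y) (B1 N M x y) l1 l0 ω +
        x * vecS N M n (DS N M n x y) (D1 N M x y) l1 l0 ω) := by
  have hN : 0 < N := Nat.pos_of_ne_zero (NeZero.ne N)
  have hM : 0 < M := Nat.pos_of_ne_zero (NeZero.ne M)
  have h2M : NeZero (2 * M) := ⟨by omega⟩
  have hr : ω.1.1.2.val < 2 * M := ZMod.val_lt _
  have ht : ω.1.2.val < N := ZMod.val_lt _
  have he : ω.2.val < n := ZMod.val_lt _
  unfold vecS
  split_ifs
  · linear_combination l1 * relS N M n x y hN hM hr ht he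
  · linear_combination l0 * rel1 N M x y hN hM hr ht

/-- the special `(half-row, position)` -/
def Tsp (l : (Bool × ZMod (2 * M)) × ZMod N) : Bool :=
  decide ((l.1.2.val = 0 ∧ l.2.val + 1 = N) ∨ (l.1.2.val = M ∧ l.2.val = 0))

/-- rotation used for `c` -/
def rotC (l : (Bool × ZMod (2 * M)) × ZMod N) : ZMod n :=
  if (l.1.2.val = 0 ∧ l.2.val + 1 = N) ∨ (l.1.2.val = M ∧ l.2.val = 0) then -1 else 0

/-- rotation used for `b` and `d` -/
def rotB (l : (Bool × ZMod (2 * M)) × ZMod N) : ZMod n :=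
  if l.1.2.val = 0 ∧ l.2.val + 1 = N then -2 else 0

/-- [M1] membership of the five kinds of generators in `Gam` (`unfold Gam`; `Set.mem_union`,
`Set.mem_range`). -/
lemma mem_Gam :
    (∀ v, (transl v : Equiv.Perm (OmS N M n)) ∈ Gam Bool (ZMod (2 * M)) (ZMod N) (ZMod n)) ∧
    (∀ B, (reflP B : Equiv.Perm (OmS N M n)) ∈ Gam Bool (ZMod (2 * M)) (ZMod N) (ZMod n)) ∧
    (∀ w, (shiftP (transl w) : Equiv.Perm (OmS N M n)) ∈
      Gam Bool (ZMod (2 * M)) (ZMod N) (ZMod n)) ∧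
    (∀ u, (shiftP (shiftP (transl u)) : Equiv.Perm (OmS N M n)) ∈
      Gam Bool (ZMod (2 * M)) (ZMod N) (ZMod n)) ∧
    ((shiftP (shiftP negP) : Equiv.Perm (OmS N M n)) ∈
      Gam Bool (ZMod (2 * M)) (ZMod N) (ZMod n)) := by
  unfold Gam
  refine ⟨fun v => ?_, fun B => ?_, fun w => ?_, fun u => ?_, ?_⟩
  · exact Or.inl (Or.inl (Or.inl (Or.inl (Or.inr ⟨v, rfl⟩))))
  · exact Or.inl (Or.inl (Or.inl (Or.inr ⟨B, rfl⟩)))
  · exact Or.inl (Or.inl (Or.inr ⟨w, rfl⟩))
  · exact Or.inl (Or.inr ⟨u, rfl⟩)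
  · exact Or.inr ⟨(), rfl⟩

/-- [R1] `y = a ∘ transl rotC ∘ reflP Tsp`, i.e.
`ReachP.perm (reflP (Tsp N M)) _ (ReachP.perm (transl (rotC N M n)) _ ReachP.base)`, is
`ω ↦ a (ω.1, ± ω.2 + rotC ω.1)`; then `reachP_of_abs` with `CS_eq`, `val_neg_sub_one`; in the design 1
part `C1 = ± A1` (unfold `C1`). -/
lemma reach_cS :
    ReachP (Gam Bool (ZMod (2 * M)) (ZMod N) (ZMod n))
      (vecS N M n (AS N M n x y) (A1 N M x y) l1 l0)
      (vecS N M n (CS N M n x y) (C1 N M x y) l1 l0) := by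
  have hG := mem_Gam N M n
  refine reachP_of_abs (ReachP.perm (reflP (Tsp N M)) (hG.2.1 _)
    (ReachP.perm (transl (rotC N M n)) (hG.1 _) ReachP.base)) (fun ω => ?_)
  obtain ⟨⟨⟨l, κ⟩, t⟩, e⟩ := ω
  have he : e.val < n := ZMod.val_lt e
  by_cases hs : (κ.val = 0 ∧ t.val + 1 = N) ∨ (κ.val = M ∧ t.val = 0)
  · have hT : ∀ l : Bool, Tsp N M ((l, κ), t) = true := fun l => by
      unfold Tsp; exact decide_eq_true hs
    have hR : ∀ l : Bool, rotC N M n ((l, κ), t) = -1 := fun l => by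
      unfold rotC; exact if_pos hs
    cases l
    · right
      simp only [vecS, reflP, transl, Equiv.coe_fn_mk, C1, if_pos hs]
      simp
    · right
      simp only [vecS, reflP, transl, Equiv.coe_fn_mk, hT, hR, if_true]
      rw [CS_eq N M n x y he, if_pos hs, val_neg_sub_one]
      ring
  · have hT : ∀ l : Bool, Tsp N M ((l, κ), t) = false := fun l => by
      unfold Tsp; exact decide_eq_false hs
    have hR : ∀ l : Bool, rotC N M n ((l, κ), t) = 0 := fun l => by
      unfold rotC; exact if_neg hs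
    cases l
    · left
      simp only [vecS, reflP, transl, Equiv.coe_fn_mk, C1, if_neg hs]
      simp
    · left
      simp only [vecS, reflP, transl, Equiv.coe_fn_mk, hT, hR, if_true,
        Bool.false_eq_true, if_false, add_zero]
      rw [CS_eq N M n x y he, if_neg hs]

omit [NeZero N] [NeZero M] in
private lemma rho_val (κ : ZMod (2 * M)) (t : ZMod N) (e : ZMod n) (b : Bool) :
    ((if Tsp N M ((b, κ), t) then -e else e) + rotB N M n ((b, κ), t)).val =
      rho N M n κ.val t.val e.val := by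
  unfold Tsp rotB rho
  by_cases h1 : κ.val = 0 ∧ t.val + 1 = N
  · have hT : decide ((κ.val = 0 ∧ t.val + 1 = N) ∨ (κ.val = M ∧ t.val = 0)) = true :=
      decide_eq_true (Or.inl h1)
    rw [if_pos hT, if_pos h1, if_pos h1]
    exact val_neg_sub_two n e
  · by_cases h2 : κ.val = M ∧ t.val = 0
    · have hT : decide ((κ.val = 0 ∧ t.val + 1 = N) ∨ (κ.val = M ∧ t.val = 0)) = true :=
        decide_eq_true (Or.inr h2)
      rw [if_pos hT, if_neg h1, if_neg h1, if_pos h2, add_zero]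
      exact val_neg' n e
    · have hT : ¬ decide ((κ.val = 0 ∧ t.val + 1 = N) ∨ (κ.val = M ∧ t.val = 0)) = true := by
        rw [decide_eq_true_iff]
        rintro (h | h)
        · exact h1 h
        · exact h2 h
      rw [if_neg hT, if_neg h1, if_neg h1, if_neg h2, add_zero]

/-- [R2] `y = a ∘ Neg ∘ Tr ∘ transl rotB ∘ reflP Tsp` with `Neg = shiftP (shiftP negP)`,
`Tr = shiftP (transl fun l => (vv1 N M l.2.val : ℕ))`:
`ReachP.perm (reflP _) _ (ReachP.perm (transl _) _ (ReachP.perm Tr _ (ReachP.perm Neg _ base)))`.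
Pointwise: `y (((l, κ), t), e) = a (((l, -κ), t + vv1 κ), e')`, `e'.val = rho κ.val t.val e.val`
(`val_neg_sub_two`, `val_neg'`, `add_zero`); `lift_abs` and `B1_eq`
(`(-κ).val = (2M - κ.val) % (2M)` by `ZMod.neg_val'`, `(t + v).val` by `ZMod.val_add`,
`ZMod.val_natCast`, `Nat.add_mod_mod`; see the proof of `RQ.reach_b`); `reachP_of_abs`. -/
lemma reach_bS :
    ReachP (Gam Bool (ZMod (2 * M)) (ZMod N) (ZMod n))
      (vecS N M n (AS N M n x y) (A1 N M x y) l1 l0)
      (vecS N M n (BS N M n x y) (B1 N M x y) l1 l0) := by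
  have hN : 0 < N := Nat.pos_of_ne_zero (NeZero.ne N)
  have hM : 0 < M := Nat.pos_of_ne_zero (NeZero.ne M)
  obtain ⟨g1, g2, g3, g4, g5⟩ := mem_Gam N M n
  have h := ReachP.perm (reflP (Tsp N M)) (g2 _)
    (ReachP.perm (transl (rotB N M n)) (g1 _)
      (ReachP.perm (shiftP (transl fun l : Bool × ZMod (2 * M) => ((vv1 N M l.2.val : ℕ) : ZMod N)))
        (g3 _)
        (ReachP.perm (shiftP (shiftP negP)) g5
          (ReachP.base (a := vecS N M n (AS N M n x y) (A1 N M x y) l1 l0)))))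
  refine reachP_of_abs h (fun ω => ?_)
  obtain ⟨⟨⟨b, κ⟩, t⟩, e⟩ := ω
  have hκ : κ.val < 2 * M := ZMod.val_lt κ
  have ht : t.val < N := ZMod.val_lt t
  have he : e.val < n := ZMod.val_lt e
  have e1 : (-κ).val = (2 * M - κ.val) % (2 * M) := ZMod.neg_val' κ
  have e2 : (t + ((vv1 N M κ.val : ℕ) : ZMod N)).val = (t.val + vv1 N M κ.val) % N := by
    rw [ZMod.val_add, ZMod.val_natCast, Nat.add_mod_mod]
  have e3 := rho_val N M n κ t e b
  cases b
  · simp only [vecS, negP, transl, shiftP, reflP, Equiv.coe_fn_mk, Bool.false_eq_true, if_false]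
    left
    rw [e1, e2, ← B1_eq N M x y hN hM hκ ht]
  · simp only [vecS, negP, transl, shiftP, reflP, Equiv.coe_fn_mk, if_true]
    rw [e1, e2, e3]
    unfold AS BS
    rw [← B1_eq N M x y hN hM hκ ht]
    rcases lift_abs N M n x y (B1 N M x y) (r := κ.val) (t := t.val) he with h0 | h0
    · left; rw [h0]
    · right; rw [h0]; ring

/-- [R3] `y = a ∘ Neg ∘ Tr ∘ K1 ∘ Neg ∘ transl rotB ∘ reflP Tsp`, `K1 = shiftP (shiftP (transl fun _ => 1))`.
Pointwise: `y (((l, κ), t), e) = a (((l, -(-κ + 1)), t + vv1 (-κ + 1)), e')`; `lift_abs`, `D1_eq`, then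
`B1_eq` at `r' = (-κ + 1).val = (2M - κ.val + 1) % (2M)` (see the proof of `RQ.reach_d`). -/
lemma reach_dS :
    ReachP (Gam Bool (ZMod (2 * M)) (ZMod N) (ZMod n))
      (vecS N M n (AS N M n x y) (A1 N M x y) l1 l0)
      (vecS N M n (DS N M n x y) (D1 N M x y) l1 l0) := by
  have hN : 0 < N := Nat.pos_of_ne_zero (NeZero.ne N)
  have hM : 0 < M := Nat.pos_of_ne_zero (NeZero.ne M)
  obtain ⟨g1, g2, g3, g4, g5⟩ := mem_Gam N M n
  have h := ReachP.perm (reflP (Tsp N M)) (g2 _)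
    (ReachP.perm (transl (rotB N M n)) (g1 _)
      (ReachP.perm (shiftP (shiftP negP)) g5
        (ReachP.perm (shiftP (shiftP (transl fun _ : Bool => (1 : ZMod (2 * M))))) (g4 _)
          (ReachP.perm
            (shiftP (transl fun l : Bool × ZMod (2 * M) => ((vv1 N M l.2.val : ℕ) : ZMod N)))
            (g3 _)
            (ReachP.perm (shiftP (shiftP negP)) g5
              (ReachP.base (a := vecS N M n (AS N M n x y) (A1 N M x y) l1 l0)))))))
  refine reachP_of_abs h (fun ω => ?_)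
  obtain ⟨⟨⟨b, κ⟩, t⟩, e⟩ := ω
  have hκ : κ.val < 2 * M := ZMod.val_lt κ
  have ht : t.val < N := ZMod.val_lt t
  have he : e.val < n := ZMod.val_lt e
  have e0 : (-κ + 1).val = (2 * M - κ.val + 1) % (2 * M) := by
    rw [ZMod.val_add, ZMod.neg_val', ZMod.val_one_eq_one_mod, ← Nat.add_mod]
  have hr' : (2 * M - κ.val + 1) % (2 * M) < 2 * M := Nat.mod_lt _ (by omega)
  have e1 : (-(-κ + 1)).val = (2 * M - (2 * M - κ.val + 1) % (2 * M)) % (2 * M) := by
    rw [ZMod.neg_val', e0]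
  have e2 : (t + ((vv1 N M (-κ + 1).val : ℕ) : ZMod N)).val =
      (t.val + vv1 N M ((2 * M - κ.val + 1) % (2 * M))) % N := by
    rw [ZMod.val_add, ZMod.val_natCast, Nat.add_mod_mod, e0]
  have e3 := rho_val N M n κ t e b
  have e4 : D1 N M x y κ.val t.val =
      A1 N M x y ((2 * M - (2 * M - κ.val + 1) % (2 * M)) % (2 * M))
        ((t.val + vv1 N M ((2 * M - κ.val + 1) % (2 * M))) % N) := by
    rw [D1_eq N M x y hM t.val hκ, B1_eq N M x y hN hM hr' ht]
  cases b
  · simp only [vecS, negP, transl, shiftP, reflP, Equiv.coe_fn_mk, Bool.false_eq_true, if_false]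
    left
    rw [e1, e2, ← e4]
  · simp only [vecS, negP, transl, shiftP, reflP, Equiv.coe_fn_mk, if_true]
    rw [e1, e2, e3]
    unfold AS DS
    rw [← e4]
    rcases lift_abs N M n x y (D1 N M x y) (r := κ.val) (t := t.val) he with h0 | h0
    · left; rw [h0]
    · right; rw [h0]; ring

end Vale.Agent.P058.RS
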