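import Vale.Agent.P058.RS.Levels
import Vale.Agent.P058.RQ.Bridge

/-!
# The staircase designs (paper proof: notes/P058_ramsey_quad.md, section Staircase)

`n` translated copies (boxes `e < n`, translation `e (N, -M)`) of design 1 of `RQ/Defs.lean`; the position
`(r, t, e)` is the one whose `a`-value is the value `A1 r t` of box `e`, i.e. `A1 r t + zt e`.
At the two special `(r, t)` the `A`-move of box `e` sits on a cell of the neighbouring box.
-/

namespace Vale.Agent.P058.RS

open Vale.Agent.P058.RQ

noncomputable section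

section
variable (N M n : ℕ) (x y : ℝ)

/-- the (centred) translation of box `e` -/
def zt (e : ℕ) : ℝ := ((e : ℝ) - ((n : ℝ) - 1) / 2) * (N * x - M * y)

/-- `b` and `d` of the staircase from those of design 1 -/
def lift (F : ℕ → ℕ → ℝ) (r t e : ℕ) : ℝ :=
  if r = 0 ∧ t + 1 = N then
    (if e + 1 = n then F r t + zt N M n x y e else - F r t + zt N M n x y (e + 1))
  else if r = M ∧ t = 0 then
    (if e = 0 then F r t + zt N M n x y e else - F r t + zt N M n x y (e - 1))
  else F r t + zt N M n x y e

/-- the box in which the value is looked up -/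
def rho (r t e : ℕ) : ℕ :=
  if r = 0 ∧ t + 1 = N then (if e + 1 = n then e else n - 2 - e)
  else if r = M ∧ t = 0 then (if e = 0 then 0 else n - e)
  else e

def AS (r t e : ℕ) : ℝ := A1 N M x y r t + zt N M n x y e
def CS (r t e : ℕ) : ℝ := C1 N M x y r t + zt N M n x y e
def BS (r t e : ℕ) : ℝ := lift N M n x y (B1 N M x y) r t e
def DS (r t e : ℕ) : ℝ := lift N M n x y (D1 N M x y) r t e

end

/-- coordinates: ((design, half-row), position), box -/
abbrev OmS (N M n : ℕ) := ((Bool × ZMod (2 * M)) × ZMod N) × ZMod n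

/-- concatenation of `l1 •` (a vector of the staircase) and `l0 •` (a vector of design 1, repeated) -/
def vecS (N M n : ℕ) (F1 : ℕ → ℕ → ℕ → ℝ) (F0 : ℕ → ℕ → ℝ) (l1 l0 : ℝ) (ω : OmS N M n) : ℝ :=
  if ω.1.1.1 then l1 * F1 ω.1.1.2.val ω.1.2.val ω.2.val else l0 * F0 ω.1.1.2.val ω.1.2.val

end

end Vale.Agent.P058.RS
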