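import Vale.Agent.P058.RQ.Geom

/-!
# Signed permutation groups with a subnormal series with commutative quotients

`GenRel Γ`: the orbit relation (on letters) of the group generated by all sign changes and the
permutations of the coordinates in `Γ`.  `ach_genRel_step`: a commuting family normalising `Γ` may be
added.  `isRamsey_of_reachP`, `isRamsey_of_configP`: as in `ReachG.lean`, `RQ/Geom.lean`.
-/

namespace Vale.Agent.P058.RS

open Finset Vale.Agent.P058 Vale.Agent.P058.Quad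
open scoped RealInnerProductSpace

variable {Lam S : Type}

def GenRel (Γ : Set (Equiv.Perm (Lam × S))) : XX Lam S → XX Lam S → Prop :=
  Relation.EqvGen (fun x y => (∃ ε, y = signP ε x) ∨ ∃ π ∈ Γ, y = permP π x)

lemma ach_genRel_empty [Fintype Lam] [Fintype S] (a : Lam × S → ℝ) :
    Ach (KK a) (GenRel (∅ : Set (Equiv.Perm (Lam × S)))) := by
  classical
  have A₁ := ach_family (KK a) (KK_self a) (fun ε => signP ε) (KK_signP a) (by
      intro ε ε' x
      funext ω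
      simp [signP, mul_left_comm]) (fun x y => x = y)
      eq_equivalence (by rintro ε x y rfl; rfl) (Ach.eq _)
  refine Ach.mono (eqvGen_le (Relation.EqvGen.is_equivalence _) ?_) A₁
  rintro x y (⟨ε, rfl⟩ | ⟨π, hπ, _⟩)
  · exact Relation.EqvGen.rel _ _ (Or.inr ⟨ε, rfl⟩)
  · exact absurd hπ (Set.notMem_empty _)

lemma ach_genRel_step [Fintype Lam] [Fintype S] (a : Lam × S → ℝ)
    (Γ : Set (Equiv.Perm (Lam × S))) {ι : Type} [Finite ι] (F : ι → Equiv.Perm (Lam × S))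
    (hcomm : ∀ i j ω, F i (F j ω) = F j (F i ω))
    (hnorm : ∀ i, ∀ π ∈ Γ, ∃ π' ∈ Γ, ∀ ω, π (F i ω) = F i (π' ω))
    (hA : Ach (KK a) (GenRel Γ)) : Ach (KK a) (GenRel (Γ ∪ Set.range F)) := by
  classical
  have hc : ∀ i x y, GenRel Γ x y → GenRel Γ (permP (F i) x) (permP (F i) y) := by
    intro i
    apply eqvGen_pres
    rintro x y (⟨ε, rfl⟩ | ⟨π, hπ, rfl⟩)
    · exact Relation.EqvGen.rel _ _ (Or.inl ⟨ε ∘ F i, permP_signP (F i) ε x⟩)
    · obtain ⟨π', hπ', h⟩ := hnorm i π hπ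
      refine Relation.EqvGen.rel _ _ (Or.inr ⟨π', hπ', ?_⟩)
      funext ω
      simp only [permP, Equiv.coe_fn_mk, Function.comp_apply]
      rw [h ω]
  have A := ach_family (KK a) (KK_self a) (fun i => permP (F i)) (fun i => KK_permP a _) (by
      intro i j x
      funext ω
      simp only [permP, Equiv.coe_fn_mk, Function.comp_apply]
      rw [hcomm j i ω]) (GenRel Γ) (Relation.EqvGen.is_equivalence _) hc hA
  refine Ach.mono (eqvGen_le (Relation.EqvGen.is_equivalence _) ?_) A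
  rintro x y (⟨ε, rfl⟩ | ⟨π, hπ | ⟨i, rfl⟩, rfl⟩)
  · exact Relation.EqvGen.rel _ _ (Or.inl (Relation.EqvGen.rel _ _ (Or.inl ⟨ε, rfl⟩)))
  · exact Relation.EqvGen.rel _ _ (Or.inl (Relation.EqvGen.rel _ _ (Or.inr ⟨π, hπ, rfl⟩)))
  · exact Relation.EqvGen.rel _ _ (Or.inr ⟨i, rfl⟩)

/-- vectors reachable from `a` by sign changes and the permutations in `Γ`. -/
inductive ReachP (Γ : Set (Equiv.Perm (Lam × S))) (a : Lam × S → ℝ) : (Lam × S → ℝ) → Prop
  | base : ReachP Γ a a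
  | sign (ε : Lam × S → ℤˣ) {y : Lam × S → ℝ} (h : ReachP Γ a y) :
      ReachP Γ a (fun ω => ((ε ω : ℤ) : ℝ) * y ω)
  | perm (π : Equiv.Perm (Lam × S)) (hπ : π ∈ Γ) {y : Lam × S → ℝ} (h : ReachP Γ a y) :
      ReachP Γ a (fun ω => y (π ω))

theorem isRamsey_of_reachP [Fintype Lam] [Fintype S] {d : ℕ} (A : Set (E d))
    (Γ : Set (Equiv.Perm (Lam × S))) (hT : ∀ a : Lam × S → ℝ, Ach (KK a) (GenRel Γ))
    (a : Lam × S → ℝ) (g : E d → Lam × S → ℝ)
    (hg : ∀ p ∈ A, ReachP Γ a (g p))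
    (hd : ∀ p ∈ A, ∀ q ∈ A, ∑ ω, (g p ω - g q ω) ^ 2 = dist p q ^ 2) : IsRamsey A := by
  classical
  have hAch := hT a
  have hEq : Equivalence (GenRel Γ) := Relation.EqvGen.is_equivalence _
  set x₀ : XX Lam S := fun ω => (1, ω) with hx₀
  have key : ∀ y, ReachP Γ a y → ∃ x, GenRel Γ x₀ x ∧ ev a x = y := by
    intro y hy
    induction hy with
    | base =>
      refine ⟨x₀, hEq.refl _, ?_⟩
      funext ω
      simp [ev, hx₀]
    | sign ε h ih =>
      obtain ⟨x, hx, rfl⟩ := ih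
      refine ⟨signP ε x, hEq.trans hx (Relation.EqvGen.rel _ _ (Or.inl ⟨ε, rfl⟩)), ?_⟩
      funext ω
      simp [ev, signP, mul_assoc]
    | perm π hπ h ih =>
      obtain ⟨x, hx, rfl⟩ := ih
      refine ⟨permP π x, hEq.trans hx (Relation.EqvGen.rel _ _ (Or.inr ⟨π, hπ, rfl⟩)), ?_⟩
      funext ω
      simp [ev, permP]
  intro r
  obtain ⟨D, hD⟩ := mono_of_ach (ev a) (GenRel Γ) hAch r
  refine ⟨D, fun col => ?_⟩
  obtain ⟨φ, hφ1, hφ2⟩ := hD col
  have key' : ∀ p : E d, ∃ x, p ∈ A → (GenRel Γ x₀ x ∧ ev a x = g p) := by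
    intro p
    by_cases hp : p ∈ A
    · obtain ⟨x, hx⟩ := key _ (hg p hp)
      exact ⟨x, fun _ => hx⟩
    · exact ⟨x₀, fun h => absurd h hp⟩
  choose ψ hψ using key'
  refine ⟨fun p => φ (ψ p), ?_, ?_⟩
  · intro p hp q hq
    have h1 : dist (φ (ψ p)) (φ (ψ q)) ^ 2 = dist p q ^ 2 := by
      rw [hφ1, (hψ p hp).2, (hψ q hq).2, hd p hp q hq]
    exact (sq_eq_sq₀ dist_nonneg dist_nonneg).1 h1
  · intro p hp q hq
    exact hφ2 _ _ (hEq.trans (hEq.symm (hψ p hp).1) (hψ q hq).1)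

lemma ReachP.sum_sq [Fintype Lam] [Fintype S] {Γ : Set (Equiv.Perm (Lam × S))}
    {a y : Lam × S → ℝ} (h : ReachP Γ a y) : ∑ ω, y ω ^ 2 = ∑ ω, a ω ^ 2 := by
  induction h with
  | base => rfl
  | sign ε h ih =>
    rw [← ih]
    refine Finset.sum_congr rfl fun ω _ => ?_
    rcases Int.units_eq_one_or (ε ω) with h1 | h1 <;> simp [h1]
  | perm π hπ h ih =>
    rename_i y
    rw [← ih]
    exact Equiv.sum_comp π (fun ω => y ω ^ 2)

lemma ReachP.smul {Γ : Set (Equiv.Perm (Lam × S))}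
    {a y : Lam × S → ℝ} (r : ℝ) (h : ReachP Γ a y) :
    ReachP Γ (fun ω => r * a ω) (fun ω => r * y ω) := by
  induction h with
  | base => exact ReachP.base
  | sign ε h ih =>
    rename_i y
    have e : (fun ω => r * (((ε ω : ℤ) : ℝ) * y ω)) = fun ω => ((ε ω : ℤ) : ℝ) * (r * y ω) := by
      funext ω; ring
    rw [e]
    exact ReachP.sign ε ih
  | perm π hπ h ih => exact ReachP.perm π hπ ih

/-- changing signs arbitrarily keeps a vector reachable -/
lemma reachP_of_abs {Γ : Set (Equiv.Perm (Lam × S))}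
    {a y z : Lam × S → ℝ} (h : ReachP Γ a y) (hz : ∀ ω, z ω = y ω ∨ z ω = - y ω) :
    ReachP Γ a z := by
  classical
  have e : z = fun ω => (((if z ω = y ω then (1 : ℤˣ) else -1 : ℤˣ) : ℤ) : ℝ) * y ω := by
    funext ω
    by_cases h1 : z ω = y ω
    · simp [h1]
    · rcases hz ω with h2 | h2
      · exact absurd h2 h1
      · rw [if_neg h1, h2]; simp
  rw [e]
  exact ReachP.sign _ h

end Vale.Agent.P058.RS
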