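import Vale.Agent.P058.RS.General

/-! # A configuration of reachable vectors realises every quadrilateral with the same data
(copy of `RQ.isRamsey_of_config` for `ReachP`) -/

namespace Vale.Agent.P058.RS

open Vale.Agent.P058 Vale.Agent.P058.Quad
open scoped RealInnerProductSpace

theorem isRamsey_of_configP {Lam S : Type} [Fintype Lam] [Fintype S] {n : ℕ}
    (Γ : Set (Equiv.Perm (Lam × S))) (hT : ∀ a : Lam × S → ℝ, Ach (KK a) (GenRel Γ)) (A B C D : E n) (p q : ℝ)
    (hq0 : 0 < q) (hq1 : q < 1) (a b c d : Lam × S → ℝ)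
    (hb : ReachP Γ a b) (hc : ReachP Γ a c) (hd : ReachP Γ a d)
    (hrel0 : ∀ ω, (1 - p) * a ω + p * c ω = (1 - q) * b ω + q * d ω)
    (hpos : 0 < ∑ ω, (c ω - a ω) ^ 2)
    (hrel : (1 - p) • A + p • C = (1 - q) • B + q • D) (hAC : A ≠ C)
    (hσ : ⟪C - A, D - B⟫ * ∑ ω, (c ω - a ω) ^ 2 =
      (∑ ω, (c ω - a ω) * (d ω - b ω)) * ‖C - A‖ ^ 2)
    (hW : p * (1 - p) * ‖C - A‖ ^ 2 = q * (1 - q) * ‖D - B‖ ^ 2) :
    IsRamsey ({A, B, C, D} : Set (E n)) := by
  classical
  let T : (Lam × S → ℝ) → EuclideanSpace ℝ (Lam × S) := fun x => WithLp.toLp 2 x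
  have hTa : ∀ x ω, T x ω = x ω := fun x ω => rfl
  have hinner : ∀ x y : EuclideanSpace ℝ (Lam × S), ⟪x, y⟫ = ∑ ω, x ω * y ω := by
    intro x y
    rw [PiLp.inner_apply]
    refine Finset.sum_congr rfl fun ω _ => ?_
    simp [mul_comm]
  have hnormsq : ∀ x : EuclideanSpace ℝ (Lam × S), ‖x‖ ^ 2 = ∑ ω, x ω ^ 2 := by
    intro x
    rw [← real_inner_self_eq_norm_sq, hinner]
    exact Finset.sum_congr rfl fun ω _ => (sq _).symm
  have hnorm : ∀ {x : Lam × S → ℝ}, ReachP Γ a x → ‖T x‖ = ‖T a‖ := by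
    intro x hx
    have h : ‖T x‖ ^ 2 = ‖T a‖ ^ 2 := by
      rw [hnormsq, hnormsq]
      exact hx.sum_sq
    exact (sq_eq_sq₀ (norm_nonneg _) (norm_nonneg _)).1 h
  have hca2 : ‖T c - T a‖ ^ 2 = ∑ ω, (c ω - a ω) ^ 2 := by
    rw [hnormsq]; rfl
  have hin : ⟪T c - T a, T d - T b⟫ = ∑ ω, (c ω - a ω) * (d ω - b ω) := by
    rw [hinner]; rfl
  have hca : 0 < ‖T c - T a‖ := by
    have : 0 < ‖T c - T a‖ ^ 2 := by rw [hca2]; exact hpos
    rcases (norm_nonneg (T c - T a)).lt_or_eq with h | h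
    · exact h
    · rw [← h] at this; simp at this
  have hrelT : (1 - p) • T a + p • T c = (1 - q) • T b + q • T d := by
    ext ω
    simpa [hTa] using hrel0 ω
  set r : ℝ := ‖C - A‖ / ‖T c - T a‖ with hr
  have hr2 : r ^ 2 * ‖T c - T a‖ ^ 2 = ‖C - A‖ ^ 2 := by
    rw [hr]; field_simp
  have hrel' : (1 - p) • (r • T a) + p • (r • T c) = (1 - q) • (r • T b) + q • (r • T d) := by
    linear_combination (norm := module) r • hrelT
  have hU : ‖r • T c - r • T a‖ ^ 2 = ‖C - A‖ ^ 2 := by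
    rw [← smul_sub, norm_smul, mul_pow, Real.norm_eq_abs, sq_abs, hr2]
  have hS : ⟪r • T c - r • T a, r • T d - r • T b⟫ = ⟪C - A, D - B⟫ := by
    rw [← smul_sub, ← smul_sub, inner_smul_left, inner_smul_right, hin]
    simp only [RCLike.conj_to_real]
    have h2 : (0 : ℝ) < ∑ ω, (c ω - a ω) ^ 2 := hpos
    apply mul_right_cancel₀ h2.ne'
    rw [hσ, ← hr2, hca2]
    ring
  have hpow := power_of_point (r • T a) (r • T b) (r • T c) (r • T d) p q
    (by rw [norm_smul, norm_smul, hnorm hb])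
    (by rw [norm_smul, norm_smul, hnorm hc])
    (by rw [norm_smul, norm_smul, hnorm hd]) hrel'
  have hqq : 0 < q * (1 - q) := mul_pos hq0 (by linarith)
  have hW' : ‖r • T d - r • T b‖ ^ 2 = ‖D - B‖ ^ 2 := by
    rw [hU, hW] at hpow
    exact (mul_left_cancel₀ hqq.ne' hpow).symm
  obtain ⟨d1, d2, d3, d4, d5, d6⟩ :=
    dist_eq_of_gram A B C D (r • T a) (r • T b) (r • T c) (r • T d) p q hrel hrel' hU hW' hS
  set g : E n → EuclideanSpace ℝ (Lam × S) := fun x =>
    if x = A then r • T a else if x = B then r • T b else if x = C then r • T c else r • T d with hg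
  have gA : g A = r • T a := by simp [hg]
  have gB : g B = r • T b := by
    by_cases h : B = A
    · have : dist (r • T a) (r • T b) = 0 := by rw [d1, h, dist_self]
      simp [hg, h, dist_eq_zero.1 this]
    · simp [hg, h]
  have gC : g C = r • T c := by
    by_cases h : C = A
    · exact absurd h.symm hAC
    · by_cases h' : C = B
      · have : dist (r • T b) (r • T c) = 0 := by rw [d4, h', dist_self]
        rw [← dist_eq_zero.1 this, h', gB]
      · simp [hg, h, h']
  have gD : g D = r • T d := by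
    by_cases h : D = A
    · have : dist (r • T a) (r • T d) = 0 := by rw [d3, h, dist_self]
      rw [← dist_eq_zero.1 this, h, gA]
    · by_cases h' : D = B
      · have : dist (r • T b) (r • T d) = 0 := by rw [d5, h', dist_self]
        rw [← dist_eq_zero.1 this, h', gB]
      · by_cases h'' : D = C
        · have : dist (r • T c) (r • T d) = 0 := by rw [d6, h'', dist_self]
          rw [← dist_eq_zero.1 this, h'', gC]
        · simp [hg, h, h', h'']
  have hdist : ∀ x ∈ ({A, B, C, D} : Set (E n)), ∀ y ∈ ({A, B, C, D} : Set (E n)),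
      dist (g x) (g y) = dist x y := by
    rintro x (rfl | rfl | rfl | rfl) y (rfl | rfl | rfl | rfl) <;>
      simp only [gA, gB, gC, gD, dist_self, d1, d2, d3, d4, d5, d6,
        dist_comm (r • T b) (r • T a), dist_comm (r • T c) (r • T a), dist_comm (r • T d) (r • T a),
        dist_comm (r • T c) (r • T b), dist_comm (r • T d) (r • T b),
        dist_comm (r • T d) (r • T c)] <;>
      first | rfl | exact dist_comm _ _
  refine isRamsey_of_reachP _ Γ hT (fun ω => r * a ω) (fun x ω => g x ω) ?_ ?_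
  · rintro x (rfl | rfl | rfl | rfl)
    · show ReachP Γ (fun ω => r * a ω) (fun ω => g x ω)
      rw [gA]; exact ReachP.smul r ReachP.base
    · show ReachP Γ (fun ω => r * a ω) (fun ω => g x ω)
      rw [gB]; exact ReachP.smul r hb
    · show ReachP Γ (fun ω => r * a ω) (fun ω => g x ω)
      rw [gC]; exact ReachP.smul r hc
    · show ReachP Γ (fun ω => r * a ω) (fun ω => g x ω)
      rw [gD]; exact ReachP.smul r hd
  · intro x hx y hy
    rw [← hdist x hx y hy, EuclideanSpace.dist_eq,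
      Real.sq_sqrt (Finset.sum_nonneg fun _ _ => sq_nonneg _)]
    refine Finset.sum_congr rfl fun ω _ => ?_
    rw [Real.dist_eq, sq_abs]

end Vale.Agent.P058.RS
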