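import Vale.Agent.P058.RS.Geom

/-!
# The group of the staircase designs

Coordinates `((l, κ), t), e` in `((L0 × K) × T) × S` (`K, T, S` finite commutative groups).  Levels:
rotations of `e` depending on `((l, κ), t)`; reflections `e ↦ -e` on a subset of the `((l, κ), t)`;
translations of `t` depending on `(l, κ)`; translations of `κ` depending on `l`; `κ ↦ -κ`.
-/

namespace Vale.Agent.P058.RS

open Vale.Agent.P058 Vale.Agent.P058.RQ

/-- `f` normalises the set `Γ` -/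
def Nrm {Ω : Type} (f : Equiv.Perm Ω) (Γ : Set (Equiv.Perm Ω)) : Prop :=
  ∀ π ∈ Γ, ∃ π' ∈ Γ, ∀ ω, π (f ω) = f (π' ω)

lemma Nrm.empty {Ω : Type} (f : Equiv.Perm Ω) : Nrm f ∅ := fun _ h => absurd h (Set.notMem_empty _)

lemma Nrm.union {Ω : Type} {f : Equiv.Perm Ω} {Γ₁ Γ₂ : Set (Equiv.Perm Ω)} (h₁ : Nrm f Γ₁)
    (h₂ : Nrm f Γ₂) : Nrm f (Γ₁ ∪ Γ₂) := by
  rintro π (h | h)
  · obtain ⟨π', h', e⟩ := h₁ π h
    exact ⟨π', Or.inl h', e⟩
  · obtain ⟨π', h', e⟩ := h₂ π h
    exact ⟨π', Or.inr h', e⟩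

/-- the reflection `e ↦ -e` in the fibres over `{l | T l}` -/
def reflP {Lam S : Type} [AddCommGroup S] (T : Lam → Bool) : Equiv.Perm (Lam × S) where
  toFun ω := (ω.1, if T ω.1 then -ω.2 else ω.2)
  invFun ω := (ω.1, if T ω.1 then -ω.2 else ω.2)
  left_inv ω := by by_cases h : T ω.1 <;> simp [h]
  right_inv ω := by by_cases h : T ω.1 <;> simp [h]

section
variable {Lam S : Type} [AddCommGroup S]

/-- [N1] `v' l = if T l then - v l else v l`. -/
lemma nrm_refl_transl (T : Lam → Bool) :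
    Nrm (reflP T : Equiv.Perm (Lam × S)) (Set.range fun v : Lam → S => transl v) := by
  rintro π ⟨v, rfl⟩
  refine ⟨transl (fun l => if T l then - v l else v l), ⟨_, rfl⟩, ?_⟩
  rintro ⟨l, e⟩
  by_cases h : T l
  · simp [reflP, transl, h, add_comm]
  · simp [reflP, transl, h]

/-- [N2] `v' = v ∘ g`. -/
lemma nrm_shift_transl (g : Equiv.Perm Lam) :
    Nrm (shiftP g : Equiv.Perm (Lam × S)) (Set.range fun v : Lam → S => transl v) := by
  rintro _ ⟨v, rfl⟩
  exact ⟨transl (fun l => v (g l)), ⟨_, rfl⟩, fun ω => rfl⟩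

/-- [N3] `T' = T ∘ g`. -/
lemma nrm_shift_refl (g : Equiv.Perm Lam) :
    Nrm (shiftP g : Equiv.Perm (Lam × S)) (Set.range fun T : Lam → Bool => (reflP T : Equiv.Perm (Lam × S))) := by
  rintro _ ⟨T, rfl⟩
  exact ⟨reflP (fun l => T (g l)), ⟨_, rfl⟩, fun ω => rfl⟩

/-- [N4] if `g` normalises `Γ` then `shiftP g` normalises `shiftP '' Γ`. -/
lemma nrm_shift_shift {ι : Type} (g : Equiv.Perm Lam) (F : ι → Equiv.Perm Lam)
    (h : Nrm g (Set.range F)) :
    Nrm (shiftP g : Equiv.Perm (Lam × S)) (Set.range fun i => (shiftP (F i) : Equiv.Perm (Lam × S))) := by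
  rintro _ ⟨i, rfl⟩
  obtain ⟨_, ⟨j, rfl⟩, e⟩ := h (F i) ⟨i, rfl⟩
  refine ⟨shiftP (F j), ⟨j, rfl⟩, fun ω => ?_⟩
  exact Prod.ext (e ω.1) rfl

/-- [N5] `u' = - u`. -/
lemma nrm_neg_transl :
    Nrm (negP : Equiv.Perm (Lam × S)) (Set.range fun v : Lam → S => transl v) := by
  rintro _ ⟨v, rfl⟩
  refine ⟨transl (fun l => - v l), ⟨_, rfl⟩, fun ω => ?_⟩
  refine Prod.ext rfl ?_
  change -ω.2 + v ω.1 = -(ω.2 + -v ω.1)
  abel

/-- [C1] -/
lemma comm_transl (v w : Lam → S) (ω : Lam × S) :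
    transl v (transl w ω) = transl w (transl v ω) := by
  show (ω.1, ω.2 + w ω.1 + v ω.1) = (ω.1, ω.2 + v ω.1 + w ω.1)
  rw [add_right_comm]

/-- [C2] -/
lemma comm_refl (T T' : Lam → Bool) (ω : Lam × S) :
    (reflP T : Equiv.Perm (Lam × S)) (reflP T' ω) = reflP T' (reflP T ω) := by
  show (ω.1, if T ω.1 then -(if T' ω.1 then -ω.2 else ω.2) else (if T' ω.1 then -ω.2 else ω.2))
    = (ω.1, if T' ω.1 then -(if T ω.1 then -ω.2 else ω.2) else (if T ω.1 then -ω.2 else ω.2))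
  by_cases h : T ω.1 <;> by_cases h' : T' ω.1 <;> simp [h, h']

/-- [C3] -/
lemma comm_shift (g g' : Equiv.Perm Lam) (h : ∀ l, g (g' l) = g' (g l)) (ω : Lam × S) :
    (shiftP g : Equiv.Perm (Lam × S)) (shiftP g' ω) = shiftP g' (shiftP g ω) := by
  exact Prod.ext (h ω.1) rfl

end

variable (L0 K T S : Type) [AddCommGroup K] [AddCommGroup T] [AddCommGroup S]

/-- the generators -/
def Gam : Set (Equiv.Perm (((L0 × K) × T) × S)) :=
  ((((∅ ∪ Set.range fun v : (L0 × K) × T → S => transl v) ∪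
    Set.range fun B : (L0 × K) × T → Bool => reflP B) ∪
    Set.range fun w : L0 × K → T => shiftP (transl w)) ∪
    Set.range fun u : L0 → K => shiftP (shiftP (transl u))) ∪
    Set.range fun _ : Unit => shiftP (shiftP negP)

theorem ach_Gam [Fintype L0] [Fintype K] [Fintype T] [Fintype S] (a : ((L0 × K) × T) × S → ℝ) :
    Ach (KK a) (GenRel (Gam L0 K T S)) := by
  classical
  unfold Gam
  refine ach_genRel_step a _ _ (fun _ _ _ => rfl) ?_ <|
    ach_genRel_step a _ _ (fun u u' ω => comm_shift _ _ (fun l => comm_shift _ _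
      (fun l' => comm_transl _ _ l') l) ω) ?_ <|
    ach_genRel_step a _ _ (fun w w' ω => comm_shift _ _ (fun l => comm_transl _ _ l) ω) ?_ <|
    ach_genRel_step a _ _ (fun B B' ω => comm_refl _ _ ω) ?_ <|
    ach_genRel_step a _ _ (fun v v' ω => comm_transl _ _ ω) ?_ (ach_genRel_empty a)
  · intro _
    exact ((((Nrm.empty _).union (nrm_shift_transl _)).union (nrm_shift_refl _)).union
      (nrm_shift_shift _ _ (nrm_shift_transl _))).union
      (nrm_shift_shift _ _ (nrm_shift_shift _ _ nrm_neg_transl))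
  · intro u
    exact (((Nrm.empty _).union (nrm_shift_transl _)).union (nrm_shift_refl _)).union
      (nrm_shift_shift _ _ (nrm_shift_transl _))
  · intro w
    exact ((Nrm.empty _).union (nrm_shift_transl _)).union (nrm_shift_refl _)
  · intro B
    exact (Nrm.empty _).union (nrm_refl_transl _)
  · intro v
    exact Nrm.empty _

end Vale.Agent.P058.RS
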