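import Vale.Agent.P058.RS.Bridge
import Vale.Agent.P058.RQ.Main

/-! # Ramsey quadrilaterals: the symmetric range of angles -/

namespace Vale.Agent.P058.RS

open Vale.Agent.P058 Vale.Agent.P058.Quad Vale.Agent.P058.RQ
open scoped RealInnerProductSpace

theorem ramsey_coreS {d : ℕ} (A B C D O : E d) (r p q : ℝ) (hA : dist A O = r) (hB : dist B O = r)
    (hC : dist C O = r) (hD : dist D O = r) (hq0 : 0 < q) (hq1 : q < 1)
    (hrel : (1 - p) • A + p • C = (1 - q) • B + q • D) (hAC : A ≠ C) (N M : ℕ) (hN : 0 < N)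
    (hM : 0 < M) (hratio : p * (1 - q) * M = q * (1 - p) * N) (n : ℕ) (hn : 2 ≤ n)
    (h0 : (2 - (n : ℝ)) * ‖C - A‖ ^ 2 ≤ n * (⟪C - A, D - B⟫ * (N * q + M * (1 - q))))
    (h1 : ⟪C - A, D - B⟫ * (N * q + M * (1 - q)) ≤ ‖C - A‖ ^ 2) :
    IsRamsey ({A, B, C, D} : Set (E d)) := by
  have : NeZero N := ⟨hN.ne'⟩
  have : NeZero M := ⟨hM.ne'⟩
  have : NeZero n := ⟨by omega⟩
  have hW := power_of_point' A B C D O r p q hA hB hC hD hrel
  have hNr : (0 : ℝ) < N := by exact_mod_cast hN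
  have hMr : (0 : ℝ) < M := by exact_mod_cast hM
  have hnr : (2 : ℝ) ≤ n := by exact_mod_cast hn
  set G : ℝ := N * q + M * (1 - q) with hG
  have hGpos : 0 < G := by
    have : 0 < 1 - q := by linarith
    positivity
  have hU : 0 < ‖C - A‖ ^ 2 := by
    have : 0 < ‖C - A‖ := norm_pos_iff.2 (sub_ne_zero.2 (Ne.symm hAC))
    positivity
  set U : ℝ := ‖C - A‖ ^ 2 with hUdef
  set Sg : ℝ := ⟪C - A, D - B⟫ with hS
  set θ : ℝ := Sg * G / U with hθ
  have hθU : θ * U = Sg * G := by rw [hθ]; field_simp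
  have hθ1 : θ ≤ 1 := by
    rw [hθ, div_le_one hU]; exact h1
  have hθ0 : 2 - (n : ℝ) ≤ n * θ := by
    have : (2 - (n : ℝ)) * U ≤ (n * θ) * U := by rw [mul_assoc, hθU]; exact h0
    exact le_of_mul_le_mul_right this hU
  have hn1 : (0 : ℝ) < 2 * ((n : ℝ) - 1) := by linarith
  set s1 : ℝ := (1 - θ) * n / (2 * ((n : ℝ) - 1)) with hs1
  have hs10 : 0 ≤ s1 := by
    apply div_nonneg _ hn1.le
    exact mul_nonneg (by linarith) (by linarith)
  have hs11 : s1 ≤ 1 := by
    rw [hs1, div_le_one hn1]; nlinarith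
  have hs1e : s1 * (2 * ((n : ℝ) - 1)) = (1 - θ) * n := by
    rw [hs1]; exact div_mul_cancel₀ _ hn1.ne'
  set l1 : ℝ := Real.sqrt s1 with hl1
  set l0 : ℝ := Real.sqrt (1 - s1) with hl0
  have e1 : l1 ^ 2 = s1 := by rw [hl1, Real.sq_sqrt hs10]
  have e0 : l0 ^ 2 = 1 - s1 := by rw [hl0, Real.sq_sqrt (by linarith)]
  have hGp : G * p = N * q := by rw [hG]; linear_combination hratio
  have hsq := sum_sq_vecS N M n q (1 - q) l1 l0
  have hpr := sum_pr_vecS N M n q (1 - q) l1 l0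
  rw [e1, e0, ← hG, add_sub_cancel, one_mul] at hsq
  rw [e1, e0, ← hG] at hpr
  refine isRamsey_of_configP _ (ach_Gam Bool (ZMod (2 * M)) (ZMod N) (ZMod n)) A B C D p q hq0 hq1
    (vecS N M n (AS N M n q (1 - q)) (A1 N M q (1 - q)) l1 l0)
    (vecS N M n (BS N M n q (1 - q)) (B1 N M q (1 - q)) l1 l0)
    (vecS N M n (CS N M n q (1 - q)) (C1 N M q (1 - q)) l1 l0)
    (vecS N M n (DS N M n q (1 - q)) (D1 N M q (1 - q)) l1 l0)
    (reach_bS N M n _ _ _ _) (reach_cS N M n _ _ _ _) (reach_dS N M n _ _ _ _) ?_ ?_ hrel hAC ?_ hW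
  · intro ω
    have h := rel_vecS N M n q (1 - q) l1 l0 ω
    rw [← hG] at h
    apply mul_left_cancel₀ hGpos.ne'
    set a := vecS N M n (AS N M n q (1 - q)) (A1 N M q (1 - q)) l1 l0 ω
    set b := vecS N M n (BS N M n q (1 - q)) (B1 N M q (1 - q)) l1 l0 ω
    set c := vecS N M n (CS N M n q (1 - q)) (C1 N M q (1 - q)) l1 l0 ω
    set d := vecS N M n (DS N M n q (1 - q)) (D1 N M q (1 - q)) l1 l0 ω
    linear_combination h + (c - a) * hGp + a * hG
  · rw [hsq]; positivity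
  · rw [hsq, hpr]
    linear_combination (2 * G * U) * hs1e - (2 * n * G) * hθU

/-- core form, all angles with `- |C-A|² < ⟪C-A, D-B⟫ G ≤ |C-A|²` -/
theorem ramsey_core_strict {d : ℕ} (A B C D O : E d) (r p q : ℝ) (hA : dist A O = r)
    (hB : dist B O = r) (hC : dist C O = r) (hD : dist D O = r) (hq0 : 0 < q) (hq1 : q < 1)
    (hrel : (1 - p) • A + p • C = (1 - q) • B + q • D) (hAC : A ≠ C) (N M : ℕ) (hN : 0 < N)
    (hM : 0 < M) (hratio : p * (1 - q) * M = q * (1 - p) * N)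
    (h0 : - ‖C - A‖ ^ 2 < ⟪C - A, D - B⟫ * (N * q + M * (1 - q)))
    (h1 : ⟪C - A, D - B⟫ * (N * q + M * (1 - q)) ≤ ‖C - A‖ ^ 2) :
    IsRamsey ({A, B, C, D} : Set (E d)) := by
  set U : ℝ := ‖C - A‖ ^ 2 with hUdef
  set X : ℝ := ⟪C - A, D - B⟫ * (N * q + M * (1 - q)) with hX
  have hpos : 0 < U + X := by linarith
  obtain ⟨n, hn⟩ := exists_nat_gt (2 * U / (U + X) + 2)
  have hU0 : 0 ≤ U := by positivity
  have hn2 : (2 : ℝ) ≤ n := by
    have : 0 ≤ 2 * U / (U + X) := by positivity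
    linarith
  have hn' : 2 * U / (U + X) ≤ n := by linarith
  rw [div_le_iff₀ hpos] at hn'
  refine ramsey_coreS A B C D O r p q hA hB hC hD hq0 hq1 hrel hAC N M hN hM hratio n
    (by exact_mod_cast hn2) ?_ h1
  rw [← hUdef, ← hX]
  linarith

/-- [F1] Cyclic quadrilateral `ABCD` with `M |AB|² = N |CD|²` and `N M ⟪C-A, D-B⟫² < |AC|² |BD|²`
(or equality and `⟪C-A, D-B⟫ ≤ 0`).  Copy of the proof of `RQ.ramsey_quad` (Vale/Agent/P058/RQ/Main.lean):
apply `ramsey_core_strict` to `A D C B`, `1 - q`.  With `a = N (1-q)`, `c = M q`, `S = ⟪C-A, D-B⟫`: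
`((-S) (a + c))² ≤ U²` (strict in the first case), hence `-U < (-S)(a+c) ≤ U` in the first case
(`abs_lt_of_sq_lt_sq`), and in the second case `0 ≤ (-S)(a+c) ≤ U`, `0 < U`. -/
theorem ramsey_quad2 {d : ℕ} (A B C D O : E d) (r p q : ℝ) (hA : dist A O = r) (hB : dist B O = r)
    (hC : dist C O = r) (hD : dist D O = r) (hp0 : 0 < p) (hp1 : p < 1) (hq0 : 0 < q) (hq1 : q < 1)
    (hrel : (1 - p) • A + p • C = (1 - q) • B + q • D) (hAC : A ≠ C) (hCD : C ≠ D) (N M : ℕ)
    (hN : 0 < N) (hM : 0 < M) (hside : (M : ℝ) * dist A B ^ 2 = N * dist C D ^ 2)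
    (h1 : (N : ℝ) * M * ⟪C - A, D - B⟫ ^ 2 < ‖C - A‖ ^ 2 * ‖D - B‖ ^ 2 ∨
      ((N : ℝ) * M * ⟪C - A, D - B⟫ ^ 2 = ‖C - A‖ ^ 2 * ‖D - B‖ ^ 2 ∧ ⟪C - A, D - B⟫ ≤ 0)) :
    IsRamsey ({A, B, C, D} : Set (E d)) := by
  have hW := power_of_point' A B C D O r p q hA hB hC hD hrel
  have hsr := side_ratio A B C D p q hrel hW
  have hNr : (0 : ℝ) < N := by exact_mod_cast hN
  have hMr : (0 : ℝ) < M := by exact_mod_cast hM
  have hcd : 0 < dist C D ^ 2 := by
    have : 0 < dist C D := dist_pos.2 hCD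
    positivity
  have hratio : p * q * M = (1 - q) * (1 - p) * N := by
    have : ((1 - p) * (1 - q) * N - p * q * M) * dist C D ^ 2 = 0 := by
      linear_combination (M : ℝ) * hsr - (1 - p) * (1 - q) * hside
    rcases mul_eq_zero.1 this with h | h
    · linarith
    · exact absurd h hcd.ne'
  have hrel' : (1 - p) • A + p • C = (1 - (1 - q)) • D + (1 - q) • B := by
    rw [hrel, add_comm]; congr 1; congr 1; ring
  have hinner : ⟪C - A, B - D⟫ = - ⟪C - A, D - B⟫ := by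
    rw [← neg_sub D B, inner_neg_right]
  have hUpos : 0 < ‖C - A‖ ^ 2 := by
    have : 0 < ‖C - A‖ := norm_pos_iff.2 (sub_ne_zero.2 (Ne.symm hAC))
    positivity
  set U : ℝ := ‖C - A‖ ^ 2 with hU
  set V : ℝ := ‖D - B‖ ^ 2 with hV
  set S : ℝ := ⟪C - A, D - B⟫ with hS
  have hU0 : 0 ≤ U := hUpos.le
  have hq1' : 0 < 1 - q := by linarith
  have hp1' : 0 < 1 - p := by linarith
  set a : ℝ := N * (1 - q) with ha
  set c : ℝ := M * q with hc
  have ha0 : 0 < a := by positivity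
  have hc0 : 0 < c := by positivity
  have hpc : p * c = (1 - p) * a := by rw [ha, hc]; linear_combination hratio
  have hp : (a + c) * p = a := by linear_combination hpc
  have hp' : (a + c) * (1 - p) = c := by linear_combination -hpc
  have hqq : 0 < q * (1 - q) := by positivity
  have hac : 0 < a * c := by positivity
  have hid : a * c * (((-S) * (a + c)) ^ 2) - a * c * U ^ 2 =
      (a + c) ^ 2 * (q * (1 - q)) * ((N : ℝ) * M * S ^ 2 - U * V) := by
    have e3 : (a + c) ^ 2 * (p * (1 - p) * U * U) = a * c * U ^ 2 := by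
      calc (a + c) ^ 2 * (p * (1 - p) * U * U) = ((a + c) * p) * ((a + c) * (1 - p)) * U ^ 2 := by
            ring
        _ = a * c * U ^ 2 := by rw [hp, hp']
    have e5 : a * c * (((-S) * (a + c)) ^ 2) = (a + c) ^ 2 * (q * (1 - q)) * ((N : ℝ) * M * S ^ 2) := by
      rw [ha, hc]; ring
    rw [e5, ← e3]
    linear_combination (-(a + c) ^ 2 * U) * hW
  have hpos2 : 0 < (a + c) ^ 2 * (q * (1 - q)) := by positivity
  have hbounds : -U < (-S) * (a + c) ∧ (-S) * (a + c) ≤ U := by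
    rcases h1 with h1 | ⟨h1, h0⟩
    · have hlt : ((-S) * (a + c)) ^ 2 < U ^ 2 := by
        have : a * c * (((-S) * (a + c)) ^ 2) - a * c * U ^ 2 < 0 := by
          rw [hid]
          exact mul_neg_of_pos_of_neg hpos2 (by linarith)
        have h' : a * c * (((-S) * (a + c)) ^ 2) < a * c * U ^ 2 := by linarith
        exact lt_of_mul_lt_mul_left h' hac.le
      have := abs_lt_of_sq_lt_sq hlt hU0
      rw [abs_lt] at this
      exact ⟨this.1, this.2.le⟩
    · have heq : ((-S) * (a + c)) ^ 2 = U ^ 2 := by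
        have : a * c * (((-S) * (a + c)) ^ 2) - a * c * U ^ 2 = 0 := by
          rw [hid, h1]; ring
        have h' : a * c * (((-S) * (a + c)) ^ 2) = a * c * U ^ 2 := by linarith
        exact mul_left_cancel₀ hac.ne' h'
      have hnn : 0 ≤ (-S) * (a + c) := mul_nonneg (by linarith) (by positivity)
      have := abs_le_of_sq_le_sq heq.le hU0
      exact ⟨by linarith, (le_abs_self _).trans this⟩
  have e : ⟪C - A, B - D⟫ * (↑N * (1 - q) + ↑M * (1 - (1 - q))) = (-S) * (a + c) := by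
    rw [hinner, ha, hc]; ring
  have := ramsey_core_strict A D C B O r p (1 - q) hA hD hC hB (by linarith) (by linarith) hrel'
    hAC N M hN hM (by linear_combination hratio) (by rw [e]; exact hbounds.1)
    (by rw [e]; exact hbounds.2)
  have hset : ({A, B, C, D} : Set (E d)) = {A, D, C, B} := by
    ext x; simp only [Set.mem_insert_iff, Set.mem_singleton_iff]; tauto
  rw [hset]; exact this

end Vale.Agent.P058.RS
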