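import Vale.Agent.P058.RS.Defs

/-! # The staircase: identities on natural number indices -/

namespace Vale.Agent.P058.RS

open Vale.Agent.P058.RQ

variable (N M n : ℕ) (x y : ℝ)

/-- [S0] `unfold zt`, `Nat.cast_sub`, `ring`. -/
lemma zt_refl {e : ℕ} (he : e < n) : zt N M n x y (n - 1 - e) = - zt N M n x y e := by
  unfold zt
  have : ((n - 1 - e : ℕ) : ℝ) = (n : ℝ) - 1 - e := by
    rw [Nat.cast_sub (by omega), Nat.cast_sub (by omega)]; simp
  rw [this]; ring

/-- [S1] pointwise relation.  Not special: `rel1` plus `(x+y) (M y + N x) zt = (N x + M y) (y + x) zt`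
(`linear_combination rel1 ..`).  `r = 0, t + 1 = N`: `A1 = val 0 0`, `C1 = - val 0 0`,
`B1 = val (N-1) 0`, `D1 = val N 1`; `zt (e+1) = zt e + (N x - M y)`.  `r = M, t = 0`: `A1 = val N M`,
`C1 = - val N M`, `B1 = val 1 M`, `D1 = val 0 (M-1)`; `zt (e-1) = zt e - (N x - M y)`.
In the sub-cases `e + 1 = n`, `e = 0` again `rel1`. -/
lemma relS (hN : 0 < N) (hM : 0 < M) {r t e : ℕ} (hr : r < 2 * M) (ht : t < N) (he : e < n) :
    (x + y) * (M * y * AS N M n x y r t e + N * x * CS N M n x y r t e) =
      (N * x + M * y) * (y * BS N M n x y r t e + x * DS N M n x y r t e) := by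
  have h1 := rel1 N M x y hN hM hr ht
  unfold CS AS DS BS lift
  by_cases c1 : r = 0 ∧ t + 1 = N
  · rw [if_pos c1, if_pos c1]
    by_cases c3 : e + 1 = n
    · rw [if_pos c3, if_pos c3]
      linear_combination h1
    · rw [if_neg c3, if_neg c3]
      obtain ⟨rfl, h2⟩ := c1
      subst h2
      have hmod : (t + 1) % (t + 1) = 0 := Nat.mod_self _
      simp only [C1, A1, B1, D1, val, zt, hmod, true_and, and_self, if_true, true_or]
      push_cast
      ring
  · rw [if_neg c1, if_neg c1]
    by_cases c2 : r = M ∧ t = 0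
    · rw [if_pos c2, if_pos c2]
      by_cases c3 : e = 0
      · rw [if_pos c3, if_pos c3]
        linear_combination h1
      · rw [if_neg c3, if_neg c3]
        obtain ⟨rfl, rfl⟩ := c2
        obtain ⟨e', rfl⟩ : ∃ e', e = e' + 1 := ⟨e - 1, by omega⟩
        obtain ⟨r', rfl⟩ : ∃ r', r = r' + 1 := ⟨r - 1, by omega⟩
        have hr0 : r' + 1 ≠ 0 := by omega
        simp only [C1, A1, B1, D1, val, zt, hr0, lt_irrefl, le_refl, and_self, if_true, if_false,
          or_true, Nat.add_sub_cancel, false_and, false_or]
        push_cast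
        ring
    · rw [if_neg c2, if_neg c2]
      linear_combination h1

/-- [S2] `zt_refl`. -/
lemma CS_eq {r t e : ℕ} (he : e < n) :
    CS N M n x y r t e =
      if (r = 0 ∧ t + 1 = N) ∨ (r = M ∧ t = 0) then - AS N M n x y r t (n - 1 - e)
      else AS N M n x y r t e := by
  unfold CS AS C1
  rw [zt_refl N M n x y he]
  split_ifs <;> ring

/-- [S3] `zt (n - 2 - e) = - zt (e + 1)` if `e + 1 < n`, `zt (n - e) = - zt (e - 1)` if `0 < e < n`
(both are `zt_refl`). -/
lemma lift_abs (F : ℕ → ℕ → ℝ) {r t e : ℕ} (he : e < n) :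
    lift N M n x y F r t e = F r t + zt N M n x y (rho N M n r t e) ∨
      lift N M n x y F r t e = - (F r t + zt N M n x y (rho N M n r t e)) := by
  unfold lift rho
  split_ifs with h1 h2 h3 h4
  · exact Or.inl rfl
  · right
    have h := zt_refl N M n x y (e := e + 1) (by omega)
    have h5 : n - 1 - (e + 1) = n - 2 - e := by omega
    rw [h5] at h
    rw [h]
    ring
  · left
    rw [h4]
  · right
    have h := zt_refl N M n x y (e := e - 1) (by omega)
    have h5 : n - 1 - (e - 1) = n - e := by omega
    rw [h5] at h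
    rw [h]
    ring
  · exact Or.inl rfl

/-- [S4] `C - A` vanishes unless `(r, t)` is special (`± (N x + M y)`), and there `D - B` is
`± (D1 - B1) = ± (x + y)` (the `zt` cancel). -/
lemma prS (hN : 0 < N) (hM : 0 < M) {r t e : ℕ} (hr : r < 2 * M) (ht : t < N) (he : e < n) :
    (CS N M n x y r t e - AS N M n x y r t e) * (DS N M n x y r t e - BS N M n x y r t e) =
      if r = 0 ∧ t + 1 = N then
        (if e + 1 = n then (N * x + M * y) * (x + y) else - ((N * x + M * y) * (x + y)))
      else if r = M ∧ t = 0 then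
        (if e = 0 then (N * x + M * y) * (x + y) else - ((N * x + M * y) * (x + y)))
      else 0 := by
  unfold CS AS DS BS lift
  by_cases c1 : r = 0 ∧ t + 1 = N
  · rw [if_pos c1, if_pos c1, if_pos c1]
    obtain ⟨rfl, h2⟩ := c1
    subst h2
    have hmod : (t + 1) % (t + 1) = 0 := Nat.mod_self _
    by_cases c3 : e + 1 = n
    · rw [if_pos c3, if_pos c3, if_pos c3]
      simp only [C1, A1, B1, D1, val, hmod, true_and, and_self, if_true, true_or]
      push_cast
      ring
    · rw [if_neg c3, if_neg c3, if_neg c3]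
      simp only [C1, A1, B1, D1, val, hmod, true_and, and_self, if_true, true_or]
      push_cast
      ring
  · rw [if_neg c1, if_neg c1, if_neg c1]
    by_cases c2 : r = M ∧ t = 0
    · rw [if_pos c2, if_pos c2, if_pos c2]
      obtain ⟨rfl, rfl⟩ := c2
      obtain ⟨r', rfl⟩ : ∃ r', r = r' + 1 := ⟨r - 1, by omega⟩
      have hr0 : r' + 1 ≠ 0 := by omega
      by_cases c3 : e = 0
      · rw [if_pos c3, if_pos c3, if_pos c3]
        simp only [C1, A1, B1, D1, val, hr0, lt_irrefl, le_refl, and_self, if_true, if_false,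
          or_true, Nat.add_sub_cancel, false_and, false_or]
        push_cast
        ring
      · rw [if_neg c3, if_neg c3, if_neg c3]
        simp only [C1, A1, B1, D1, val, hr0, lt_irrefl, le_refl, and_self, if_true, if_false,
          or_true, Nat.add_sub_cancel, false_and, false_or]
        push_cast
        ring
    · rw [if_neg c2, if_neg c2, if_neg c2]
      have hC : C1 N M x y r t = A1 N M x y r t := by
        unfold C1
        rw [if_neg]
        rintro (h | h)
        · exact c1 h
        · exact c2 h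
      rw [hC]
      ring

/-- [S5] the inner sum over `e` is `(2 - n) K` at each of the two special `(r, t)`. -/
lemma cntS (hN : 0 < N) (hM : 0 < M) (hn : 0 < n) (K : ℝ) :
    ∑ r ∈ Finset.range (2 * M), ∑ t ∈ Finset.range N, ∑ e ∈ Finset.range n,
      (if r = 0 ∧ t + 1 = N then (if e + 1 = n then K else - K)
      else if r = M ∧ t = 0 then (if e = 0 then K else - K) else 0) = (4 - 2 * n) * K := by
  have h1 : ∑ e ∈ Finset.range n, (if e + 1 = n then K else -K) = (2 - n) * K := by
    have h : ∀ e ∈ Finset.range n,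
        (if e + 1 = n then K else -K) = -K + (if e = n - 1 then 2 * K else 0) := by
      intro e he
      have he' : e < n := Finset.mem_range.1 he
      by_cases h : e + 1 = n
      · have h' : e = n - 1 := by omega
        rw [if_pos h, if_pos h']; ring
      · have h' : e ≠ n - 1 := by omega
        rw [if_neg h, if_neg h']; ring
    rw [Finset.sum_congr rfl h, Finset.sum_add_distrib, Finset.sum_ite_eq',
      if_pos (Finset.mem_range.2 (by omega))]
    simp
    ring
  have h2 : ∑ e ∈ Finset.range n, (if e = 0 then K else -K) = (2 - n) * K := by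
    have h : ∀ e ∈ Finset.range n,
        (if e = 0 then K else -K) = -K + (if e = 0 then 2 * K else 0) := by
      intro e he
      by_cases h : e = 0
      · rw [if_pos h, if_pos h]; ring
      · rw [if_neg h, if_neg h]; ring
    rw [Finset.sum_congr rfl h, Finset.sum_add_distrib, Finset.sum_ite_eq',
      if_pos (Finset.mem_range.2 (by omega))]
    simp
    ring
  have h3 : ∀ r t : ℕ, ∑ e ∈ Finset.range n,
      (if r = 0 ∧ t + 1 = N then (if e + 1 = n then K else - K)
      else if r = M ∧ t = 0 then (if e = 0 then K else - K) else 0) =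
      (if r = 0 ∧ t + 1 = N then (2 - (n : ℝ)) * K else 0) +
        (if r = M ∧ t = 0 then (2 - (n : ℝ)) * K else 0) := by
    intro r t
    by_cases c1 : r = 0 ∧ t + 1 = N
    · have c2 : ¬ (r = M ∧ t = 0) := by omega
      simp only [if_pos c1, if_neg c2, h1, add_zero]
    · by_cases c2 : r = M ∧ t = 0
      · simp only [if_neg c1, if_pos c2, h2, zero_add]
      · simp only [if_neg c1, if_neg c2, Finset.sum_const_zero, add_zero]
  have h4 : ∑ r ∈ Finset.range (2 * M), ∑ t ∈ Finset.range N,
      (if r = 0 ∧ t + 1 = N then (2 - (n : ℝ)) * K else 0) = (2 - n) * K := by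
    rw [Finset.sum_eq_single 0, Finset.sum_eq_single (N - 1)]
    · rw [if_pos]; exact ⟨rfl, by omega⟩
    · intro t _ ht; rw [if_neg]; omega
    · intro h; exact absurd (Finset.mem_range.2 (by omega)) h
    · intro r _ hr; apply Finset.sum_eq_zero; intro t _; rw [if_neg]; omega
    · intro h; exact absurd (Finset.mem_range.2 (by omega)) h
  have h5 : ∑ r ∈ Finset.range (2 * M), ∑ t ∈ Finset.range N,
      (if r = M ∧ t = 0 then (2 - (n : ℝ)) * K else 0) = (2 - n) * K := by
    rw [Finset.sum_eq_single M, Finset.sum_eq_single 0]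
    · rw [if_pos]; exact ⟨rfl, rfl⟩
    · intro t _ ht; rw [if_neg]; omega
    · intro h; exact absurd (Finset.mem_range.2 (by omega)) h
    · intro r _ hr; apply Finset.sum_eq_zero; intro t _; rw [if_neg]; omega
    · intro h; exact absurd (Finset.mem_range.2 (by omega)) h
  simp only [h3, Finset.sum_add_distrib, h4, h5]
  ring

end Vale.Agent.P058.RS
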